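import Mathlib

/-!
P022-L3, [SOLV], row [THUE]: small solutions of `x ^ 2 - d y ^ 2 = b ℓ`.
-/

namespace Vale.Agent.P022.H227.Sv

/-- a short vector of the lattice `ℓ ∣ x + c y` -/
theorem exists_short (ℓ p q : ℕ) (hℓ : 0 < ℓ) (hp : 0 < p) (hq : 0 < q) (c : ℤ) :
    ∃ x y : ℤ, (x ≠ 0 ∨ y ≠ 0) ∧ (ℓ : ℤ) ∣ x + c * y ∧ q * x ^ 2 ≤ p * ℓ ∧ p * y ^ 2 ≤ q * ℓ := by
  have : NeZero ℓ := ⟨hℓ.ne'⟩
  set m := Nat.sqrt (p * ℓ / q) with hm
  set n := Nat.sqrt (q * ℓ / p) with hn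
  have hm1 : q * (m * m) ≤ p * ℓ :=
    (Nat.mul_le_mul_left q (Nat.sqrt_le _)).trans (Nat.mul_div_le _ _)
  have hn1 : p * (n * n) ≤ q * ℓ :=
    (Nat.mul_le_mul_left p (Nat.sqrt_le _)).trans (Nat.mul_div_le _ _)
  have hm2 : p * ℓ < ((m + 1) * (m + 1)) * q :=
    (Nat.div_lt_iff_lt_mul hq).1 (Nat.lt_succ_sqrt (p * ℓ / q))
  have hn2 : q * ℓ < ((n + 1) * (n + 1)) * p :=
    (Nat.div_lt_iff_lt_mul hp).1 (Nat.lt_succ_sqrt (q * ℓ / p))
  have hbig : ℓ < (m + 1) * (n + 1) := by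
    by_contra hcon
    push Not at hcon
    have h1 : (p * ℓ) * (q * ℓ) < (((m + 1) * (m + 1)) * q) * (((n + 1) * (n + 1)) * p) :=
      Nat.mul_lt_mul'' hm2 hn2
    have h2 : ((m + 1) * (n + 1)) * ((m + 1) * (n + 1)) ≤ ℓ * ℓ := Nat.mul_le_mul hcon hcon
    have h3 : (((m + 1) * (m + 1)) * q) * (((n + 1) * (n + 1)) * p) =
      (p * q) * (((m + 1) * (n + 1)) * ((m + 1) * (n + 1))) := by ring
    have h4 : (p * ℓ) * (q * ℓ) = (p * q) * (ℓ * ℓ) := by ring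
    rw [h3, h4] at h1
    exact absurd h1 (not_lt.2 (Nat.mul_le_mul_left _ h2))
  have hcard : (Finset.univ : Finset (ZMod ℓ)).card <
      (Finset.range (m + 1) ×ˢ Finset.range (n + 1)).card := by
    rw [Finset.card_univ, ZMod.card, Finset.card_product, Finset.card_range, Finset.card_range]
    exact hbig
  obtain ⟨a, ha, b, hb, hab, he⟩ := Finset.exists_ne_map_eq_of_card_lt_of_maps_to hcard
    (f := fun v : ℕ × ℕ => ((v.1 : ZMod ℓ) + (c : ZMod ℓ) * (v.2 : ZMod ℓ)))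
    (fun _ _ => Finset.mem_univ _)
  rw [Finset.mem_product, Finset.mem_range, Finset.mem_range] at ha hb
  refine ⟨(a.1 : ℤ) - b.1, (a.2 : ℤ) - b.2, ?_, ?_, ?_, ?_⟩
  · by_contra hcon
    push Not at hcon
    apply hab
    ext <;> omega
  · rw [← ZMod.intCast_zmod_eq_zero_iff_dvd]
    push_cast
    linear_combination he
  · have h1 : ((a.1 : ℤ) - b.1) ^ 2 ≤ ((m * m : ℕ) : ℤ) := by
      rw [← sq_abs]
      have : |((a.1 : ℤ) - b.1)| ≤ m := by
        rw [abs_le]; omega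
      push_cast
      nlinarith [abs_nonneg ((a.1 : ℤ) - b.1)]
    calc (q : ℤ) * ((a.1 : ℤ) - b.1) ^ 2 ≤ q * ((m * m : ℕ) : ℤ) :=
          mul_le_mul_of_nonneg_left h1 (by positivity)
      _ ≤ p * ℓ := by exact_mod_cast hm1
  · have h1 : ((a.2 : ℤ) - b.2) ^ 2 ≤ ((n * n : ℕ) : ℤ) := by
      rw [← sq_abs]
      have : |((a.2 : ℤ) - b.2)| ≤ n := by
        rw [abs_le]; omega
      push_cast
      nlinarith [abs_nonneg ((a.2 : ℤ) - b.2)]
    calc (p : ℤ) * ((a.2 : ℤ) - b.2) ^ 2 ≤ p * ((n * n : ℕ) : ℤ) :=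
          mul_le_mul_of_nonneg_left h1 (by positivity)
      _ ≤ q * ℓ := by exact_mod_cast hn1

theorem not_sq {d : ℤ} (hd : d = 2 ∨ d = 3 ∨ d = 6) : ¬ IsSquare d := by
  rintro ⟨r, hr⟩
  have h1 : r ≤ 2 := by
    by_contra h
    push Not at h
    have : 9 ≤ r * r := by nlinarith
    omega
  have h2 : -2 ≤ r := by
    by_contra h
    push Not at h
    have : 9 ≤ r * r := by nlinarith
    omega
  interval_cases r <;> omega

/-- the form is anisotropic -/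
theorem form_ne_zero {d : ℤ} (hd : d < 0 ∨ d = 2 ∨ d = 3 ∨ d = 6) {x y : ℤ}
    (h : x ≠ 0 ∨ y ≠ 0) : x ^ 2 - d * y ^ 2 ≠ 0 := by
  intro h0
  rcases hd with hd | hd
  · have h1 : 0 ≤ x ^ 2 := sq_nonneg x
    have h2 : 0 ≤ (-d) * y ^ 2 := mul_nonneg (by omega) (sq_nonneg y)
    have h3 : x ^ 2 = 0 := by linarith
    have h4 : (-d) * y ^ 2 = 0 := by linarith
    have hx : x = 0 := pow_eq_zero_iff two_ne_zero |>.1 h3
    have hy : y = 0 := by
      rcases mul_eq_zero.1 h4 with h5 | h5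
      · omega
      · exact pow_eq_zero_iff two_ne_zero |>.1 h5
    rcases h with h | h
    · exact h hx
    · exact h hy
  · by_cases hy : y = 0
    · subst hy
      have hx : x = 0 := by
        have : x ^ 2 = 0 := by linarith
        exact pow_eq_zero_iff two_ne_zero |>.1 this
      rcases h with h | h
      · exact h hx
      · exact h rfl
    · apply not_sq hd
      rw [← Rat.isSquare_intCast_iff]
      refine ⟨(x : ℚ) / y, ?_⟩
      have hy' : (y : ℚ) ≠ 0 := by exact_mod_cast hy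
      have h1 : (x : ℚ) ^ 2 = d * y ^ 2 := by
        have : x ^ 2 = d * y ^ 2 := by linarith
        exact_mod_cast this
      field_simp
      linarith

theorem thue' (ℓ : ℕ) (hℓ : ℓ.Prime) (h3 : 3 < ℓ) (d : ℤ)
    (hd : d ∈ ({-1, 2, -2, 3, -3, 6, -6} : Finset ℤ)) (c : ℤ) (hc : (ℓ : ℤ) ∣ c ^ 2 - d) :
    ∃ x y b u w : ℤ, b ≠ 0 ∧ ¬ (ℓ : ℤ) ∣ b ∧ x ^ 2 - d * y ^ 2 = b * ℓ ∧ (ℓ : ℤ) ∣ x + c * y ∧
      x ^ 2 + d * y ^ 2 = b * u ∧ 2 * x * y = b * w := by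
  have hℓ5 : 5 ≤ ℓ := by
    by_contra h
    have : ℓ = 4 := by omega
    subst this
    exact absurd hℓ (by decide)
  have hℓ0 : (0 : ℤ) < ℓ := by exact_mod_cast hℓ.pos
  have hd' : d = -1 ∨ d = 2 ∨ d = -2 ∨ d = 3 ∨ d = -3 ∨ d = 6 ∨ d = -6 := by
    simpa using hd
  -- the output from `b ∣ 2 x`, `|b| ≤ 4`
  have out : ∀ x y b : ℤ, (x ≠ 0 ∨ y ≠ 0) → x ^ 2 - d * y ^ 2 = b * ℓ → (ℓ : ℤ) ∣ x + c * y →
      -4 ≤ b → b ≤ 4 → b ∣ 2 * x →
      ∃ x y b u w : ℤ, b ≠ 0 ∧ ¬ (ℓ : ℤ) ∣ b ∧ x ^ 2 - d * y ^ 2 = b * ℓ ∧ (ℓ : ℤ) ∣ x + c * y ∧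
        x ^ 2 + d * y ^ 2 = b * u ∧ 2 * x * y = b * w := by
    intro x y b hxy hb hl h4 h4' ht
    obtain ⟨t, ht⟩ := ht
    have hb0 : b ≠ 0 := by
      intro h0
      rw [h0, zero_mul] at hb
      exact form_ne_zero (by omega) hxy hb
    refine ⟨x, y, b, t * x - ℓ, t * y, hb0, ?_, hb, hl, ?_, ?_⟩
    · intro hdv
      have h5 : ((5 : ℕ) : ℤ) ≤ ℓ := by exact_mod_cast hℓ5
      have := Int.le_of_dvd (abs_pos.2 hb0) ((dvd_abs _ _).2 hdv)
      have h6 : |b| ≤ 4 := abs_le.2 ⟨h4, h4'⟩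
      push_cast at h5
      omega
    · linear_combination x * ht - hb
    · linear_combination y * ht
  by_cases hcase : d = -1 ∨ d = 2 ∨ d = -2
  · obtain ⟨x, y, hxy, hl, hx, hy⟩ := exists_short ℓ 3 2 hℓ.pos (by norm_num) (by norm_num) c
    obtain ⟨b, hb⟩ : (ℓ : ℤ) ∣ x ^ 2 - d * y ^ 2 := by
      obtain ⟨s, hs⟩ := hl
      obtain ⟨v, hv⟩ := hc
      exact ⟨s * (x - c * y) + v * y ^ 2, by linear_combination (x - c * y) * hs + y ^ 2 * hv⟩
    have hb' : x ^ 2 - d * y ^ 2 = b * ℓ := by rw [hb]; ring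
    push_cast at hx hy
    have hy0 : 0 ≤ y ^ 2 := sq_nonneg y
    have hx0 : 0 ≤ x ^ 2 := sq_nonneg x
    have hb2 : b ≤ 2 := by
      by_contra hcon
      push Not at hcon
      have h1 : 3 * (ℓ : ℤ) ≤ b * ℓ := mul_le_mul_of_nonneg_right (by omega) hℓ0.le
      rcases hcase with rfl | rfl | rfl <;> linarith
    have hb3 : -2 ≤ b := by
      by_contra hcon
      push Not at hcon
      have h1 : b * (ℓ : ℤ) ≤ (-3) * ℓ := mul_le_mul_of_nonneg_right (by omega) hℓ0.le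
      rcases hcase with rfl | rfl | rfl <;> linarith
    have hb0 : b ≠ 0 := by
      intro h0
      rw [h0, zero_mul] at hb'
      exact form_ne_zero (by omega) hxy hb'
    refine out x y b hxy hb' hl (by omega) (by omega) ?_
    have : b = 1 ∨ b = -1 ∨ b = 2 ∨ b = -2 := by omega
    rcases this with rfl | rfl | rfl | rfl
    · exact one_dvd _
    · exact ⟨-(2 * x), by ring⟩
    · exact ⟨x, rfl⟩
    · exact ⟨-x, by ring⟩
  · have hcase' : d = 3 ∨ d = -3 ∨ d = 6 ∨ d = -6 := by omega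
    obtain ⟨x, y, hxy, hl, hx, hy⟩ := exists_short ℓ 5 2 hℓ.pos (by norm_num) (by norm_num) c
    obtain ⟨b, hb⟩ : (ℓ : ℤ) ∣ x ^ 2 - d * y ^ 2 := by
      obtain ⟨s, hs⟩ := hl
      obtain ⟨v, hv⟩ := hc
      exact ⟨s * (x - c * y) + v * y ^ 2, by linear_combination (x - c * y) * hs + y ^ 2 * hv⟩
    have hb' : x ^ 2 - d * y ^ 2 = b * ℓ := by rw [hb]; ring
    push_cast at hx hy
    have hy0 : 0 ≤ y ^ 2 := sq_nonneg y
    have hx0 : 0 ≤ x ^ 2 := sq_nonneg x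
    have hb2 : b ≤ 4 := by
      by_contra hcon
      push Not at hcon
      have h1 : 5 * (ℓ : ℤ) ≤ b * ℓ := mul_le_mul_of_nonneg_right (by omega) hℓ0.le
      rcases hcase' with rfl | rfl | rfl | rfl <;> linarith
    have hb3 : -2 ≤ b := by
      by_contra hcon
      push Not at hcon
      have h1 : b * (ℓ : ℤ) ≤ (-3) * ℓ := mul_le_mul_of_nonneg_right (by omega) hℓ0.le
      rcases hcase' with rfl | rfl | rfl | rfl <;> linarith
    have hb0 : b ≠ 0 := by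
      intro h0
      rw [h0, zero_mul] at hb'
      exact form_ne_zero (by omega) hxy hb'
    refine out x y b hxy hb' hl (by omega) (by omega) ?_
    have hbs : b = 1 ∨ b = -1 ∨ b = 2 ∨ b = -2 ∨ b = 3 ∨ b = 4 := by omega
    rcases hbs with rfl | rfl | rfl | rfl | rfl | rfl
    · exact one_dvd _
    · exact ⟨-(2 * x), by ring⟩
    · exact ⟨x, rfl⟩
    · exact ⟨-x, by ring⟩
    · -- `3 ∣ x`
      have h3x : (3 : ℤ) ∣ x ^ 2 := by
        rcases hcase' with rfl | rfl | rfl | rfl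
        · exact ⟨ℓ + y ^ 2, by linarith⟩
        · exact ⟨ℓ - y ^ 2, by linarith⟩
        · exact ⟨ℓ + 2 * y ^ 2, by linarith⟩
        · exact ⟨ℓ - 2 * y ^ 2, by linarith⟩
      exact Dvd.dvd.mul_left (Int.prime_three.dvd_of_dvd_pow h3x) 2
    · -- `b = 4` : only `d = -6`
      have hd6 : d = -6 := by
        rcases hcase' with rfl | rfl | rfl | rfl
        · linarith
        · linarith
        · linarith
        · rfl
      subst hd6
      have h2x : (2 : ℤ) ∣ x ^ 2 := ⟨2 * ℓ - 3 * y ^ 2, by linarith⟩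
      obtain ⟨v, hv⟩ := Int.prime_two.dvd_of_dvd_pow h2x
      exact ⟨v, by rw [hv]; ring⟩

end Vale.Agent.P022.H227.Sv
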