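import Vale.Agent.P022.H431.Sv.Defs
import Vale.Agent.P022.H227.Sv.ThueA

/-!
P022-L3, [SOLV], row [THUE].
-/

namespace Vale.Agent.P022.H227.Sv

theorem thue : Vale.Agent.P022.Sv.ThueStmt := fun ℓ hℓ h3 d hd c hc => thue' ℓ hℓ h3 d hd c hc

end Vale.Agent.P022.H227.Sv
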